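import Mathlib

/-!
P194 (direct finiteness over `F_2`), final algebra, abstract form (helper599).

Rows `r` with a group element `x r` and a Laurent polynomial `P r`, blocks `b` with a group element
`y b` and a Laurent polynomial `Q b`.  `α_S = ∑_{r ∈ S} x_r P_r(t)`, `β = ∑_b Q_b(t) y_b`.
If the terms of `α_{R1} β` cancel and those of `α_{R2} β` cancel except one, then `F_2[G]` is not
directly finite.
-/

namespace Vale.Agent.P194.Z

open Finset

/-- Laurent polynomials over `F_2` -/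
abbrev Lau : Type := AddMonoidAlgebra (ZMod 2) ℤ

section

variable {G : Type} [Group G]

/-- group elements in the group ring -/
noncomputable def em (g : G) : MonoidAlgebra (ZMod 2) G := MonoidAlgebra.of (ZMod 2) G g

theorem em_mul (g h : G) : em g * em h = em (g * h) := by
  simp [em]

theorem em_one : em (1 : G) = 1 := by
  simp [em, MonoidAlgebra.one_def]

/-- substitution of `t` in Laurent polynomials -/
noncomputable def ph (t : G) : Lau →ₐ[ZMod 2] MonoidAlgebra (ZMod 2) G :=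
  AddMonoidAlgebra.lift (ZMod 2) (MonoidAlgebra (ZMod 2) G) ℤ
    ((MonoidAlgebra.of (ZMod 2) G).comp (zpowersHom G t))

theorem ph_single (t : G) (h : ℤ) (r : ZMod 2) :
    ph t (AddMonoidAlgebra.single h r) = r • em (t ^ h) := by
  rw [ph, AddMonoidAlgebra.lift_single]
  simp [em]

theorem zmod2_of_ne {r : ZMod 2} (h : r ≠ 0) : r = 1 := by
  revert h; revert r; decide

theorem ph_eq (t : G) (f : Lau) :
    ph t f = ∑ h ∈ f.coeff.support, em (t ^ h) := by
  have h1 : f = ∑ h ∈ f.coeff.support, AddMonoidAlgebra.single h (f.coeff h) := by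
    apply AddMonoidAlgebra.coeff_injective
    rw [AddMonoidAlgebra.coeff_sum]
    simp only [AddMonoidAlgebra.coeff_single]
    exact (Finsupp.sum_single f.coeff).symm
  conv_lhs => rw [h1]
  rw [map_sum]
  refine Finset.sum_congr rfl fun h hh => ?_
  rw [ph_single, zmod2_of_ne (Finsupp.mem_support_iff.1 hh), one_smul]

/-- matched terms cancel in characteristic 2 -/
theorem sum_matched {ι : Type} (s : Finset ι) (f : ι → G) (m : ι → ι)
    (hm : ∀ q ∈ s, m q ∈ s) (hm2 : ∀ q ∈ s, m (m q) = q) (hne : ∀ q ∈ s, m q ≠ q)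
    (hf : ∀ q ∈ s, f (m q) = f q) : ∑ q ∈ s, em (f q) = 0 := by
  refine Finset.sum_involution (fun q _ => m q) ?_ ?_ ?_ ?_
  · intro q hq
    rw [hf q hq, ← two_smul (ZMod 2), show (2 : ZMod 2) = 0 from rfl, zero_smul]
  · intro q hq _
    exact hne q hq
  · intro q hq
    exact hm q hq
  · intro q hq
    exact hm2 q hq

variable {R B : Type} [Fintype R] [Fintype B]

/-- left factor of a set of rows -/
noncomputable def al (t : G) (x : R → G) (P : R → Lau) (S : Finset R) :
    MonoidAlgebra (ZMod 2) G := ∑ r ∈ S, em (x r) * ph t (P r)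

/-- right factor -/
noncomputable def be (t : G) (y : B → G) (Q : B → Lau) : MonoidAlgebra (ZMod 2) G :=
  ∑ b, ph t (Q b) * em (y b)

theorem al_be (t : G) (x : R → G) (y : B → G) (P : R → Lau) (Q : B → Lau) (S : Finset R) :
    al t x P S * be t y Q =
      ∑ r ∈ S, ∑ b, ∑ h ∈ (P r * Q b).coeff.support, em (x r * t ^ h * y b) := by
  unfold al be
  rw [Finset.sum_mul]
  refine Finset.sum_congr rfl fun r _ => ?_
  rw [Finset.mul_sum]
  refine Finset.sum_congr rfl fun b _ => ?_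
  rw [mul_assoc, ← mul_assoc (ph t (P r)), ← map_mul, ph_eq, Finset.sum_mul, Finset.mul_sum]
  refine Finset.sum_congr rfl fun h _ => ?_
  rw [em_mul, em_mul, ← mul_assoc]

theorem al_ne (t : G) (x : R → G) (P : R → Lau) (S : Finset R)
    (hinj : ∀ r ∈ S, ∀ r' ∈ S, ∀ h h' : ℤ, x r * t ^ h = x r' * t ^ h' → r = r' ∧ h = h')
    (hne : ∃ r ∈ S, P r ≠ 0) : al t x P S ≠ 0 := by
  classical
  obtain ⟨r0, hr0, hP⟩ := hne
  have h0 : ∃ h0, h0 ∈ (P r0).coeff.support := by
    apply Finsupp.support_nonempty_iff.2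
    intro h
    exact hP (AddMonoidAlgebra.coeff_eq_zero.1 h)
  obtain ⟨h0, hh0⟩ := h0
  intro hz
  have h1 : (al t x P S).coeff (x r0 * t ^ h0) = 1 := by
    unfold al
    rw [MonoidAlgebra.coeff_sum, Finsupp.finsetSum_apply, Finset.sum_eq_single r0]
    · rw [ph_eq, Finset.mul_sum, MonoidAlgebra.coeff_sum, Finsupp.finsetSum_apply,
        Finset.sum_eq_single h0]
      · rw [em_mul]
        simp [em]
      · intro h _ hne
        rw [em_mul]
        simp only [em, MonoidAlgebra.of_apply, MonoidAlgebra.coeff_single]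
        apply Finsupp.single_eq_of_ne
        intro he
        exact hne (hinj r0 hr0 r0 hr0 _ _ he).2.symm
      · intro h; exact absurd hh0 h
    · intro r hr hne
      rw [ph_eq, Finset.mul_sum, MonoidAlgebra.coeff_sum, Finsupp.finsetSum_apply]
      apply Finset.sum_eq_zero
      intro h _
      rw [em_mul]
      simp only [em, MonoidAlgebra.of_apply, MonoidAlgebra.coeff_single]
      apply Finsupp.single_eq_of_ne
      intro he
      exact hne (hinj r0 hr0 r hr _ _ he).1.symm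
    · intro h; exact absurd hr0 h
  rw [hz] at h1
  simp at h1

/-- Final algebra of P194. -/
theorem not_df (t : G) (x : R → G) (y : B → G) (P : R → Lau) (Q : B → Lau) (R1 R2 : Finset R)
    (g0 : G)
    (h1 : ∑ r ∈ R1, ∑ b, ∑ h ∈ (P r * Q b).coeff.support, em (x r * t ^ h * y b) = 0)
    (h2 : ∑ r ∈ R2, ∑ b, ∑ h ∈ (P r * Q b).coeff.support, em (x r * t ^ h * y b) = em g0)
    (hinj : ∀ r ∈ R1, ∀ r' ∈ R1, ∀ h h' : ℤ, x r * t ^ h = x r' * t ^ h' → r = r' ∧ h = h')
    (hne : ∃ r ∈ R1, P r ≠ 0) :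
    ∃ a b : MonoidAlgebra (ZMod 2) G, a * b = 1 ∧ b * a ≠ 1 := by
  refine ⟨em g0⁻¹ * al t x P R2, be t y Q, ?_, ?_⟩
  · rw [mul_assoc, al_be, h2, em_mul, inv_mul_cancel, em_one]
  · intro hba
    have h3 : al t x P R1 = 0 := by
      calc al t x P R1 = al t x P R1 * (be t y Q * (em g0⁻¹ * al t x P R2)) := by
            rw [hba, mul_one]
        _ = (al t x P R1 * be t y Q) * (em g0⁻¹ * al t x P R2) := by rw [mul_assoc]
        _ = 0 := by rw [al_be, h1, zero_mul]
    exact al_ne t x P R1 hinj hne h3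

/-- The same with an explicit matching of the ports: `Prt` = all ports `(r, b, h)`,
`m` is an involution on the ports, without fixed points, which preserves the two classes of rows,
except that the port `q0` (in a row of `R2`) is unmatched. -/
theorem not_df_of_matching (t : G) (x : R → G) (y : B → G) (P : R → Lau) (Q : B → Lau)
    (R1 R2 : Finset R)
    (m : (Σ z : R × B, {h : ℤ // h ∈ (P z.1 * Q z.2).coeff.support}) →
      (Σ z : R × B, {h : ℤ // h ∈ (P z.1 * Q z.2).coeff.support}))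
    (q0 : Σ z : R × B, {h : ℤ // h ∈ (P z.1 * Q z.2).coeff.support})
    (hq0 : q0.1.1 ∈ R2)
    (hm1 : ∀ q, q.1.1 ∈ R1 → (m q).1.1 ∈ R1 ∧ m (m q) = q ∧ m q ≠ q ∧
      x (m q).1.1 * t ^ ((m q).2 : ℤ) * y (m q).1.2 = x q.1.1 * t ^ (q.2 : ℤ) * y q.1.2)
    (hm2 : ∀ q, q.1.1 ∈ R2 → q ≠ q0 → (m q).1.1 ∈ R2 ∧ m q ≠ q0 ∧ m (m q) = q ∧ m q ≠ q ∧
      x (m q).1.1 * t ^ ((m q).2 : ℤ) * y (m q).1.2 = x q.1.1 * t ^ (q.2 : ℤ) * y q.1.2)
    (hinj : ∀ r ∈ R1, ∀ r' ∈ R1, ∀ h h' : ℤ, x r * t ^ h = x r' * t ^ h' → r = r' ∧ h = h')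
    (hne : ∃ r ∈ R1, P r ≠ 0) :
    ∃ a b : MonoidAlgebra (ZMod 2) G, a * b = 1 ∧ b * a ≠ 1 := by
  classical
  have key : ∀ S : Finset R,
      ∑ r ∈ S, ∑ b, ∑ h ∈ (P r * Q b).coeff.support, em (x r * t ^ h * y b) =
      ∑ q ∈ (univ.filter fun q : (Σ z : R × B, {h : ℤ // h ∈ (P z.1 * Q z.2).coeff.support}) =>
        q.1.1 ∈ S), em (x q.1.1 * t ^ (q.2 : ℤ) * y q.1.2) := by
    intro S
    rw [Finset.sum_filter, Fintype.sum_sigma, Fintype.sum_prod_type, ← Finset.sum_subset
      (Finset.subset_univ S)]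
    · refine Finset.sum_congr rfl fun r hr => Finset.sum_congr rfl fun b _ => ?_
      rw [← Finset.sum_coe_sort]
      refine Finset.sum_congr rfl fun h _ => ?_
      simp [hr]
    · intro r _ hr
      refine Finset.sum_eq_zero fun b _ => Finset.sum_eq_zero fun h _ => ?_
      simp [hr]
  refine not_df t x y P Q R1 R2 (x q0.1.1 * t ^ (q0.2 : ℤ) * y q0.1.2) ?_ ?_ hinj hne
  · rw [key]
    refine sum_matched _ _ m ?_ ?_ ?_ ?_
    · intro q hq
      rw [Finset.mem_filter] at hq ⊢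
      exact ⟨Finset.mem_univ _, (hm1 q hq.2).1⟩
    · intro q hq
      exact (hm1 q (Finset.mem_filter.1 hq).2).2.1
    · intro q hq
      exact (hm1 q (Finset.mem_filter.1 hq).2).2.2.1
    · intro q hq
      exact (hm1 q (Finset.mem_filter.1 hq).2).2.2.2
  · rw [key, ← Finset.add_sum_erase _ _ (Finset.mem_filter.2 ⟨Finset.mem_univ q0, hq0⟩)]
    have h3 : ∑ q ∈ (univ.filter fun q :
        (Σ z : R × B, {h : ℤ // h ∈ (P z.1 * Q z.2).coeff.support}) => q.1.1 ∈ R2).erase q0,
        em (x q.1.1 * t ^ (q.2 : ℤ) * y q.1.2) = 0 := by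
      refine sum_matched _ _ m ?_ ?_ ?_ ?_
      · intro q hq
        rw [Finset.mem_erase, Finset.mem_filter] at hq ⊢
        exact ⟨(hm2 q hq.2.2 hq.1).2.1, Finset.mem_univ _, (hm2 q hq.2.2 hq.1).1⟩
      · intro q hq
        rw [Finset.mem_erase, Finset.mem_filter] at hq
        exact (hm2 q hq.2.2 hq.1).2.2.1
      · intro q hq
        rw [Finset.mem_erase, Finset.mem_filter] at hq
        exact (hm2 q hq.2.2 hq.1).2.2.2.1
      · intro q hq
        rw [Finset.mem_erase, Finset.mem_filter] at hq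
        exact (hm2 q hq.2.2 hq.1).2.2.2.2
    rw [h3, add_zero]

end

end Vale.Agent.P194.Z
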